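import Vale.Agent.P012.Bdl.B1

/-!
Short Egyptian fractions with small denominators: merging, the greedy part with a finite set,
and the final assembly from a key lemma with a bound on the denominators.
-/

namespace Vale.Agent.P012.H422

open Finset Vale.Agent.P012

/-- `x` is a sum of at most `k` unit fractions with denominators at most `B`, repetitions
allowed. -/
def IsUFB (B k : ℕ) (x : ℚ) : Prop :=
  ∃ m : Multiset ℕ, (∀ n ∈ m, 0 < n ∧ n ≤ B) ∧ Multiset.card m ≤ k ∧
    (m.map (fun n : ℕ => 1 / (n : ℚ))).sum = x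

theorem IsUFB.mono {B B' k l : ℕ} {x : ℚ} (h : IsUFB B k x) (hB : B ≤ B') (hkl : k ≤ l) :
    IsUFB B' l x := by
  obtain ⟨m, h1, h2, h3⟩ := h
  exact ⟨m, fun n hn => ⟨(h1 n hn).1, (h1 n hn).2.trans hB⟩, h2.trans hkl, h3⟩

theorem isUFB_zero (B k : ℕ) : IsUFB B k 0 :=
  ⟨0, by simp, by simp, by simp⟩

theorem IsUFB.add {B k l : ℕ} {x y : ℚ} (hx : IsUFB B k x) (hy : IsUFB B l y) :
    IsUFB B (k + l) (x + y) := by
  obtain ⟨m, h1, h2, h3⟩ := hx
  obtain ⟨m', h1', h2', h3'⟩ := hy
  refine ⟨m + m', ?_, ?_, ?_⟩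
  · intro n hn
    rcases Multiset.mem_add.1 hn with h | h
    · exact h1 n h
    · exact h1' n h
  · rw [Multiset.card_add]; omega
  · rw [Multiset.map_add, Multiset.sum_add, h3, h3']

theorem IsUFB.div {B k : ℕ} {x : ℚ} (hx : IsUFB B k x) {t : ℕ} (ht : 0 < t) :
    IsUFB (B * t) k (x / t) := by
  obtain ⟨m, h1, h2, h3⟩ := hx
  refine ⟨m.map (fun n => n * t), ?_, ?_, ?_⟩
  · intro n hn
    obtain ⟨a, ha, rfl⟩ := Multiset.mem_map.1 hn
    exact ⟨Nat.mul_pos (h1 a ha).1 ht, Nat.mul_le_mul_right _ (h1 a ha).2⟩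
  · rwa [Multiset.card_map]
  · rw [Multiset.map_map, ← h3, ← Multiset.sum_map_div]
    congr 1
    apply Multiset.map_congr rfl
    intro n _
    simp only [Function.comp]
    push_cast
    rw [div_div]

/-- merging `1/n + 1/n = 1/(n/2)`. -/
theorem merge (B : ℕ) : ∀ (k : ℕ) (m : Multiset ℕ), Multiset.card m = k →
    (∀ n ∈ m, 0 < n ∧ n ≤ B ∧ 2 ^ k ∣ n) →
    ∃ s : Finset ℕ, s.card ≤ k ∧ (∀ n ∈ s, 0 < n ∧ n ≤ B) ∧
      ∑ n ∈ s, (1 : ℚ) / n = (m.map (fun n : ℕ => 1 / (n : ℚ))).sum := by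
  intro k
  induction k with
  | zero =>
    intro m hm _
    rw [Multiset.card_eq_zero] at hm
    subst hm
    exact ⟨∅, by simp, by simp, by simp⟩
  | succ k ih =>
    intro m hm hall
    by_cases hnd : m.Nodup
    · refine ⟨⟨m, hnd⟩, ?_, ?_, ?_⟩
      · exact hm.le
      · intro n hn
        exact ⟨(hall n hn).1, (hall n hn).2.1⟩
      · rfl
    · rw [Multiset.nodup_iff_ne_cons_cons] at hnd
      push Not at hnd
      obtain ⟨n, t, rfl⟩ := hnd
      rw [Multiset.card_cons, Multiset.card_cons] at hm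
      have hk : k = Multiset.card t + 1 := by omega
      obtain ⟨hn0, hnB, hnd⟩ := hall n (Multiset.mem_cons_self _ _)
      obtain ⟨c, hc⟩ := hnd
      have hc0 : 0 < c := by
        rcases Nat.eq_zero_or_pos c with h | h
        · subst h; omega
        · exact h
      have hn2 : n = 2 * (2 ^ k * c) := by rw [hc, pow_succ]; ring
      have hn2' : n / 2 = 2 ^ k * c := by omega
      have hp : 0 < 2 ^ k * c := by positivity
      obtain ⟨s, hs1, hs2, hs3⟩ := ih ((2 ^ k * c) ::ₘ t) (by rw [Multiset.card_cons]; omega) (by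
        intro a ha
        rcases Multiset.mem_cons.1 ha with h | h
        · subst h
          exact ⟨hp, by omega, Dvd.intro _ rfl⟩
        · obtain ⟨h1, h2, h3⟩ := hall a (Multiset.mem_cons_of_mem (Multiset.mem_cons_of_mem h))
          exact ⟨h1, h2, (pow_dvd_pow 2 (Nat.le_succ k)).trans h3⟩)
      refine ⟨s, by omega, hs2, ?_⟩
      rw [hs3, Multiset.map_cons, Multiset.sum_cons, Multiset.map_cons, Multiset.sum_cons,
        Multiset.map_cons, Multiset.sum_cons, ← add_assoc]
      congr 1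
      rw [hn2]
      have : ((2 ^ k * c : ℕ) : ℚ) ≠ 0 := by positivity
      push_cast at this ⊢
      field_simp
      norm_num

/-- the greedy algorithm, with distinct denominators. -/
theorem greedyS (j a b : ℕ) (hb : 0 < b) (hab : a < b) :
    ∃ a' b' : ℕ, ∃ s : Finset ℕ, 0 < b' ∧ b' ≤ b * 2 ^ (2 * 2 ^ j) ∧ a' * 2 ^ (2 ^ j) ≤ b' ∧
      s.card ≤ j + 1 ∧ (∀ n ∈ s, 2 ≤ n ∧ n ≤ 2 ^ (2 * 2 ^ j) ∧ n * a' < b') ∧
      ∑ n ∈ s, (1 : ℚ) / n = (a : ℚ) / b - (a' : ℚ) / b' := by
  suffices H : ∃ a' b' : ℕ, ∃ s : Finset ℕ, 0 < b' ∧ b' * 2 ≤ b * 2 ^ (2 * 2 ^ j) ∧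
      a' * 2 ^ (2 ^ j) ≤ b' ∧
      s.card ≤ j + 1 ∧ (∀ n ∈ s, 2 ≤ n ∧ n ≤ 2 ^ (2 * 2 ^ j) ∧ n * a' < b') ∧
      ∑ n ∈ s, (1 : ℚ) / n = (a : ℚ) / b - (a' : ℚ) / b' by
    obtain ⟨a', b', s, h1, h2, h3, h4⟩ := H
    exact ⟨a', b', s, h1, by omega, h3, h4⟩
  induction j with
  | zero =>
    by_cases h : a * 2 ≤ b
    · refine ⟨a, b, ∅, hb, ?_, ?_, by simp, by simp, by simp⟩
      · norm_num; omega
      · simpa only [pow_zero, pow_one] using h
    · refine ⟨2 * a - b, 2 * b, {2}, by omega, ?_, ?_, by simp, ?_, ?_⟩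
      · norm_num; omega
      · norm_num; omega
      · intro n hn
        rw [Finset.mem_singleton] at hn
        subst hn
        refine ⟨le_rfl, by norm_num, by omega⟩
      · have h2 : ((2 * a - b : ℕ) : ℚ) = 2 * a - b := by
          rw [Nat.cast_sub (by omega)]; push_cast; ring
        have hb' : (b : ℚ) ≠ 0 := by positivity
        have : (a : ℚ) / b - ((2 * a - b : ℕ) : ℚ) / ((2 * b : ℕ) : ℚ) = (1 : ℚ) / (2 : ℕ) := by
          rw [h2]; push_cast; field_simp; ring
        rw [this, Finset.sum_singleton]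
  | succ j ih =>
    obtain ⟨a', b', s, h1, h2, h3, h4, h5, h6⟩ := ih
    set E := 2 ^ (2 ^ j) with hE
    have hE2 : 2 ^ (2 ^ (j + 1)) = E ^ 2 := by rw [hE, ← pow_mul, pow_succ]
    have hE4 : 2 ^ (2 * 2 ^ (j + 1)) = 2 ^ (2 * 2 ^ j) * E ^ 2 := by
      rw [hE, ← pow_mul, ← pow_add]; congr 1; ring
    have hEE : 2 ^ (2 * 2 ^ j) = E ^ 2 := by
      rw [hE, ← pow_mul]; congr 1; ring
    have hEpos : 0 < E := by positivity
    have hE2le : 2 ≤ E := by
      rw [hE]
      calc 2 = 2 ^ 1 := by norm_num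
        _ ≤ 2 ^ (2 ^ j) := Nat.pow_le_pow_right (by norm_num) Nat.one_le_two_pow
    have hbig : 2 ^ (2 * 2 ^ j) ≤ 2 ^ (2 * 2 ^ (j + 1)) := by
      rw [hE4]
      exact Nat.le_mul_of_pos_right _ (by positivity)
    by_cases h : a' * E ^ 2 ≤ b'
    · refine ⟨a', b', s, h1, ?_, ?_, by omega, ?_, h6⟩
      · rw [hE4]
        calc b' * 2 ≤ b * 2 ^ (2 * 2 ^ j) := h2
          _ ≤ b * (2 ^ (2 * 2 ^ j) * E ^ 2) := by
            apply Nat.mul_le_mul_left
            exact Nat.le_mul_of_pos_right _ (by positivity)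
      · rw [hE2]; exact h
      · intro n hn
        exact ⟨(h5 n hn).1, (h5 n hn).2.1.trans hbig, (h5 n hn).2.2⟩
    · push Not at h
      have ha' : 0 < a' := by
        rcases Nat.eq_zero_or_pos a' with h0 | h0
        · subst h0; simp at h
        · exact h0
      -- n = ceil (b' / a')
      set n := (b' + a' - 1) / a' with hn
      have hn1 : b' ≤ a' * n := by
        have := Nat.lt_mul_div_succ (b' + a' - 1) ha'
        rw [← hn] at this
        have h5 : a' * (n + 1) = a' * n + a' := by ring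
        omega
      have hn2 : a' * n < b' + a' := by
        have := Nat.mul_div_le (b' + a' - 1) a'
        rw [← hn] at this
        omega
      have hnpos : 0 < n := by
        rcases Nat.eq_zero_or_pos n with h0 | h0
        · rw [h0] at hn1; simp at hn1; omega
        · exact h0
      have hnE : E ≤ n := by
        by_contra hcon
        push Not at hcon
        have : a' * n < a' * E := Nat.mul_lt_mul_of_pos_left hcon ha'
        omega
      have hnE2 : n ≤ E ^ 2 := by
        by_contra hcon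
        push Not at hcon
        have : a' * (E ^ 2 + 1) ≤ a' * n := Nat.mul_le_mul_left _ hcon
        have h5 : a' * (E ^ 2 + 1) = a' * E ^ 2 + a' := by ring
        omega
      have ha2 : a' * 2 ≤ b' := (Nat.mul_le_mul_left _ hE2le).trans h3
      have hnn : n * (a' * n - b') < b' * n := by
        have h7 : a' * n - b' < b' := by omega
        calc n * (a' * n - b') < n * b' := Nat.mul_lt_mul_of_pos_left h7 hnpos
          _ = b' * n := Nat.mul_comm _ _
      have hlt : ∀ c ∈ s, c < n := by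
        intro c hc
        by_contra hcon
        push Not at hcon
        have h7 := (h5 c hc).2.2
        have h8 : a' * n ≤ c * a' := by
          rw [Nat.mul_comm c]; exact Nat.mul_le_mul_left _ hcon
        omega
      have hns : n ∉ s := fun hc => lt_irrefl _ (hlt n hc)
      refine ⟨a' * n - b', b' * n, insert n s, Nat.mul_pos h1 hnpos, ?_, ?_, ?_, ?_, ?_⟩
      · rw [hE4]
        calc b' * n * 2 = (b' * 2) * n := by ring
          _ ≤ (b * 2 ^ (2 * 2 ^ j)) * E ^ 2 := Nat.mul_le_mul h2 hnE2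
          _ = b * (2 ^ (2 * 2 ^ j) * E ^ 2) := by ring
      · rw [hE2]
        have h6 : a' * n - b' ≤ a' := by omega
        calc (a' * n - b') * E ^ 2 ≤ a' * E ^ 2 := Nat.mul_le_mul_right _ h6
          _ = (a' * E) * E := by ring
          _ ≤ b' * n := Nat.mul_le_mul h3 hnE
      · rw [Finset.card_insert_of_notMem hns]; omega
      · intro c hc
        rcases Finset.mem_insert.1 hc with h | hc
        · subst h
          refine ⟨hE2le.trans hnE, ?_, hnn⟩
          calc n ≤ E ^ 2 := hnE2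
            _ = 2 ^ (2 * 2 ^ j) := hEE.symm
            _ ≤ _ := hbig
        · refine ⟨(h5 c hc).1, (h5 c hc).2.1.trans hbig, ?_⟩
          exact lt_of_le_of_lt (Nat.mul_le_mul_right _ (hlt c hc).le) hnn
      · have h7 : ((a' * n - b' : ℕ) : ℚ) = a' * n - b' := by
          rw [Nat.cast_sub hn1]; push_cast; ring
        have hb' : (b' : ℚ) ≠ 0 := by positivity
        have hn' : (n : ℚ) ≠ 0 := by positivity
        rw [Finset.sum_insert hns, h6, h7]; push_cast; field_simp; ring

end Vale.Agent.P012.H422
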