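import Vale.Agent.P012.H422.Fin

/-!
The key lemma of `Bdl/B1` with a bound on the denominators.
-/

set_option linter.all false

namespace Vale.Agent.P012.H422

open Finset Filter Vale.Agent.P012

theorem isUFB_one_div {B n : ℕ} (hn : 0 < n) (hB : n ≤ B) : IsUFB B 1 ((1 : ℚ) / n) :=
  ⟨{n}, by simpa using ⟨hn, hB⟩, by simp, by simp⟩

theorem isUFB_sum {B : ℕ} {ι : Type*} (s : Finset ι) (f : ι → ℕ)
    (hf : ∀ i ∈ s, 0 < f i ∧ f i ≤ B) : IsUFB B s.card (∑ i ∈ s, (1 : ℚ) / f i) := by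
  classical
  induction s using Finset.induction_on with
  | empty => simpa using isUFB_zero B 0
  | insert a s ha ih =>
    rw [Finset.sum_insert ha, Finset.card_insert_of_notMem ha, add_comm s.card 1]
    exact (isUFB_one_div (hf a (Finset.mem_insert_self a s)).1
      (hf a (Finset.mem_insert_self a s)).2).add
      (ih (fun i hi => hf i (Finset.mem_insert_of_mem hi)))

/-- the key statement with the bound `12 N₂ ^ 2` for the denominators. -/
def KeyStatementB : Prop :=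
    ∃ m₀ : ℕ, ∀ m ≥ m₀, ∃ N₂ : ℕ, 0 < N₂ ∧ N₂ ≤ m ^ (7000 * m) ∧ ∃ G : Finset ℕ,
      (∀ R ∈ G, IsUFB (12 * N₂ ^ 2) 12 ((R : ℚ) / N₂)) ∧
      ∀ y q : ℕ, 2 ^ (31 * m) ≤ q → y + q ≤ 2 ^ (32 * m) →
        4 * ((Finset.Ioc y (y + q)).filter (fun R => R ∉ G)).card ≤ q

theorem isUFB_of_good (hD : DvdStatement) {n : ℕ} (x : Fin n → ℕ) (hx : ∀ i, 0 < x i)
    (z e R : ℕ) (hR : 0 < R)
    (h1 : ∀ t, 2 ≤ t → t ≤ z → ¬ t ^ (e + 1) ∣ R)
    (h2 : ∀ g, g ∣ R → z < g → (coll x g) ^ 4 * g ^ 3 ≤ 4 ^ (4 * n)) :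
    IsUFB (12 * (z.factorial ^ e * (∏ i, x i) ^ 2) ^ 2) 12
      ((R : ℚ) / ((z.factorial ^ e * (∏ i, x i) ^ 2 : ℕ) : ℚ)) := by
  set M := z.factorial ^ e with hM
  have hMpos : 0 < M := by positivity
  set Rs := Nat.gcd R M with hRs
  have hRspos : 0 < Rs := Nat.gcd_pos_of_pos_left _ hR
  set Rr := R / Rs with hRr
  have hRs_dvd : Rs ∣ R := Nat.gcd_dvd_left _ _
  have hRs_dvdM : Rs ∣ M := Nat.gcd_dvd_right _ _
  have hmul : Rs * Rr = R := Nat.mul_div_cancel' hRs_dvd
  have hRrpos : 0 < Rr := Nat.div_pos (Nat.le_of_dvd hR hRs_dvd) hRspos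
  have hlarge : ∀ g, g ∣ Rr → 1 < g → z < g := by
    intro g hg hg1
    by_contra hcon
    push Not at hcon
    set p := g.minFac with hp
    have hpp : p.Prime := Nat.minFac_prime (by omega)
    have hpz : p ≤ z := (Nat.minFac_le (by omega)).trans hcon
    have hpRr : p ∣ Rr := (Nat.minFac_dvd g).trans hg
    set v := R.factorization p with hv
    have hpv : p ^ v ∣ R := Nat.ordProj_dvd R p
    have hve : v ≤ e := by
      by_contra hc
      push Not at hc
      exact h1 p hpp.two_le hpz ((Nat.pow_dvd_pow p hc).trans hpv)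
    have hpM : p ^ v ∣ M := by
      have : p ∣ z.factorial := (Nat.Prime.dvd_factorial hpp).2 hpz
      exact (Nat.pow_dvd_pow p hve).trans (pow_dvd_pow_of_dvd this e)
    have hpRs : p ^ v ∣ Rs := Nat.dvd_gcd hpv hpM
    have : p ^ (v + 1) ∣ R := by
      rw [← hmul, pow_succ]
      exact Nat.mul_dvd_mul hpRs hpRr
    exact Nat.pow_succ_factorization_not_dvd hR.ne' hpp this
  obtain ⟨S, T, hST⟩ := hD x Rr hRrpos (fun g hg hg1 =>
    h2 g (hg.trans ⟨Rs, by rw [mul_comm]; exact hmul.symm⟩) (hlarge g hg hg1))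
  set P := ∏ i, x i with hP
  have hPpos : 0 < P := Finset.prod_pos (fun i _ => hx i)
  have hprpos : ∀ U, 0 < pr x U := fun U => Finset.prod_pos (fun i _ => hx i)
  have hprdvd : ∀ U, pr x U ∣ P := fun U =>
    Finset.prod_dvd_prod_of_subset _ _ _ (Finset.subset_univ U)
  obtain ⟨w, hw⟩ := hST
  have hsumpos : 0 < ∑ j, pr x (S j) * pr x (T j) := by
    apply Finset.sum_pos
    · intro j _; exact Nat.mul_pos (hprpos _) (hprpos _)
    · exact ⟨0, Finset.mem_univ _⟩
  have hwpos : 0 < w := by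
    rcases Nat.eq_zero_or_pos w with h0 | h0
    · rw [hw, h0] at hsumpos; simp at hsumpos
    · exact h0
  set D := w * (M / Rs) with hDdef
  have hMRs : 0 < M / Rs := Nat.div_pos (Nat.le_of_dvd hMpos hRs_dvdM) hRspos
  have hDpos : 0 < D := Nat.mul_pos hwpos hMRs
  have hdvd : ∀ j, pr x (S j) * pr x (T j) ∣ P ^ 2 := fun j => by
    rw [sq]; exact Nat.mul_dvd_mul (hprdvd _) (hprdvd _)
  have hP2 : 0 < P ^ 2 := by (clear * - hPpos; positivity)
  have hwle : w ≤ 12 * P ^ 2 := by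
    calc w ≤ Rr * w := Nat.le_mul_of_pos_left _ hRrpos
      _ = ∑ j, pr x (S j) * pr x (T j) := hw.symm
      _ ≤ ∑ _j : Fin 12, P ^ 2 := Finset.sum_le_sum (fun j _ => Nat.le_of_dvd hP2 (hdvd j))
      _ = 12 * P ^ 2 := by simp
  have hbd : ∀ j, D * (P ^ 2 / (pr x (S j) * pr x (T j))) ≤ 12 * (M * P ^ 2) ^ 2 := by
    intro j
    calc D * (P ^ 2 / (pr x (S j) * pr x (T j))) ≤ (12 * P ^ 2 * M) * P ^ 2 := by
          apply Nat.mul_le_mul _ (Nat.div_le_self _ _)
          rw [hDdef]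
          exact Nat.mul_le_mul hwle (Nat.div_le_self _ _)
      _ = 12 * (M * (P ^ 2 * P ^ 2)) := by ring
      _ ≤ 12 * ((M * M) * (P ^ 2 * P ^ 2)) := by
          apply Nat.mul_le_mul_left
          apply Nat.mul_le_mul_right
          exact Nat.le_mul_of_pos_left _ hMpos
      _ = 12 * (M * P ^ 2) ^ 2 := by ring
  have hUF := isUFB_sum (B := 12 * (M * P ^ 2) ^ 2) (Finset.univ : Finset (Fin 12))
    (fun j => D * (P ^ 2 / (pr x (S j) * pr x (T j)))) (fun j _ => ⟨by
      apply Nat.mul_pos hDpos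
      apply Nat.div_pos (Nat.le_of_dvd (by (clear * - hPpos; positivity)) (hdvd j))
      exact Nat.mul_pos (hprpos _) (hprpos _), hbd j⟩)
  have hcard : (Finset.univ : Finset (Fin 12)).card = 12 := by simp
  rw [hcard] at hUF
  convert hUF using 1
  have hPQ : (P : ℚ) ≠ 0 := by (clear * - hPpos; positivity)
  have hDQ : (D : ℚ) ≠ 0 := by (clear * - hwpos hMRs; positivity)
  have hterm : ∀ j : Fin 12, (1 : ℚ) / ((D * (P ^ 2 / (pr x (S j) * pr x (T j))) : ℕ) : ℚ)
      = ((pr x (S j) * pr x (T j) : ℕ) : ℚ) / (D * P ^ 2) := by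
    intro j
    have ha : ((pr x (S j) * pr x (T j) : ℕ) : ℚ) ≠ 0 := by
      have := Nat.mul_pos (hprpos (S j)) (hprpos (T j))
      (clear * - this; positivity)
    rw [Nat.cast_mul, Nat.cast_div (hdvd j) ha]
    rw [Nat.cast_pow]
    field_simp
  rw [Finset.sum_congr rfl (fun j _ => hterm j), ← Finset.sum_div, ← Nat.cast_sum, hw]
  have hRsQ : (Rs : ℚ) ≠ 0 := by positivity
  have hwQ : (w : ℚ) ≠ 0 := by (clear * - hwpos; positivity)
  have hMQ : (M : ℚ) ≠ 0 := by positivity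
  have hDQ' : (D : ℚ) = w * (M / Rs) := by
    rw [hDdef, Nat.cast_mul, Nat.cast_div hRs_dvdM hRsQ]
  rw [hDQ', ← hmul]
  push_cast
  field_simp

open Classical in
theorem keyB_of (hD : DvdStatement) (hC : VectorStatement) : KeyStatementB := by
  obtain ⟨m₀, hm₀⟩ := hC
  -- numeric requirements
  have hnum : ∃ m₁ : ℕ, ∀ m ≥ m₁, Nat.sqrt m * (Nat.log 2 m + 6) ≤ m := by
    refine ⟨256, fun m hm => ?_⟩
    have hL : 8 ≤ Nat.log 2 m := Nat.le_log_of_pow_le (by norm_num) (by simpa using hm)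
    have hmL : 2 ^ (Nat.log 2 m) ≤ m := Nat.pow_log_le_self 2 (by omega)
    have hlin : ∀ h : ℕ, 4 ≤ h → 2 * h + 7 ≤ 2 ^ h := by
      intro h hh
      induction h, hh using Nat.le_induction with
      | base => norm_num
      | succ k hk ih => rw [pow_succ]; omega
    have h1 : Nat.log 2 m + 6 ≤ 2 ^ (Nat.log 2 m / 2) := by
      have := hlin (Nat.log 2 m / 2) (by omega)
      omega
    have h2 : 2 ^ (Nat.log 2 m / 2) ≤ Nat.sqrt m := by
      rw [Nat.le_sqrt, ← pow_add]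
      exact (Nat.pow_le_pow_right (by norm_num) (by omega)).trans hmL
    calc Nat.sqrt m * (Nat.log 2 m + 6) ≤ Nat.sqrt m * Nat.sqrt m :=
          Nat.mul_le_mul_left _ (h1.trans h2)
      _ ≤ m := Nat.sqrt_le m
  obtain ⟨m₁, hm₁⟩ := hnum
  refine ⟨max (max m₀ m₁) 8192, fun m hm => ?_⟩
  have hmm₀ : m₀ ≤ m := by omega
  have hmm₁ : m₁ ≤ m := by omega
  have hm8 : 8192 ≤ m := by omega
  obtain ⟨x, hx, hsum⟩ := hm₀ m hmm₀
  set z := Nat.sqrt m with hz
  set e := Nat.log 2 m + 6 with he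
  have hze : z * e ≤ m := hm₁ m hmm₁
  have hzm : z ≤ m := Nat.sqrt_le_self m
  have he1 : 64 * m < 2 ^ (e + 1) := by
    have : m < 2 ^ (Nat.log 2 m + 1) := Nat.lt_pow_succ_log_self (by norm_num) m
    calc 64 * m < 64 * 2 ^ (Nat.log 2 m + 1) := by omega
      _ = 2 ^ (e + 1) := by rw [he]; ring
  set G := (Finset.Ioc 0 (2 ^ (32 * m))).filter (fun R =>
    (∀ i, ¬ x i ∣ R) ∧ (∀ t ∈ Finset.Icc 2 z, ¬ t ^ (e + 1) ∣ R) ∧
      ∀ g, g ∣ R → z < g → ¬ Bad x g) with hG
  refine ⟨z.factorial ^ e * (∏ i, x i) ^ 2, ?_, ?_, G, ?_, ?_⟩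
  · have : 0 < ∏ i, x i := Finset.prod_pos (fun i _ => (hx i).1.pos)
    (clear * - this; positivity)
  · have h1 : z.factorial ^ e ≤ m ^ m := by
      calc z.factorial ^ e ≤ (z ^ z) ^ e := Nat.pow_le_pow_left (Nat.factorial_le_pow z) e
        _ = z ^ (z * e) := by rw [← pow_mul]
        _ ≤ m ^ (z * e) := Nat.pow_le_pow_left hzm _
        _ ≤ m ^ m := Nat.pow_le_pow_right (by omega) hze
    have h2 : ∏ i, x i ≤ m ^ (48 * (64 * m)) := by
      calc ∏ i, x i ≤ ∏ i : Fin (64 * m), m ^ 48 := Finset.prod_le_prod' (fun i _ => (hx i).2.2)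
        _ = m ^ (48 * (64 * m)) := by simp only [prod_const, card_univ, Fintype.card_fin, pow_mul]
    calc z.factorial ^ e * (∏ i, x i) ^ 2 ≤ m ^ m * (m ^ (48 * (64 * m))) ^ 2 :=
          Nat.mul_le_mul h1 (Nat.pow_le_pow_left h2 2)
      _ = m ^ (m + 48 * (64 * m) * 2) := by rw [← pow_mul, ← pow_add]
      _ ≤ m ^ (7000 * m) := Nat.pow_le_pow_right (by omega) (by (clear * - hm8; omega))
  · intro R hR
    rw [hG, Finset.mem_filter, Finset.mem_Ioc] at hR
    obtain ⟨⟨hR0, hRZ⟩, hR1, hR2, hR3⟩ := hR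
    apply isUFB_of_good hD x (fun i => (hx i).1.pos) z e R hR0
    · intro t ht1 ht2
      exact hR2 t (Finset.mem_Icc.2 ⟨ht1, ht2⟩)
    · intro g hg hzg
      have h4 := hR3 g hg hzg
      by_contra hcon
      push Not at hcon
      apply h4
      refine ⟨fun i => ?_, hcon⟩
      exact Nat.Coprime.coprime_dvd_right hg (((hx i).1.coprime_iff_not_dvd).2 (hR1 i))
  · intro y q hq hyq
    -- cover the non-good integers
    set I := Finset.Ioc y (y + q) with hI
    have hcover : I.filter (fun R => R ∉ G) ⊆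
        ((Finset.univ : Finset (Fin (64 * m))).biUnion (fun i => I.filter (fun R => x i ∣ R))) ∪
        ((Finset.Icc 2 z).biUnion (fun t => I.filter (fun R => t ^ (e + 1) ∣ R))) ∪
        (((Finset.Ioc z (2 ^ (32 * m))).filter (fun g => Bad x g)).biUnion
          (fun g => I.filter (fun R => g ∣ R))) := by
      intro R hR
      rw [Finset.mem_filter] at hR
      obtain ⟨hRI, hRG⟩ := hR
      have hRI' := hRI
      rw [hI, Finset.mem_Ioc] at hRI'
      have hR0 : 0 < R := by omega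
      have hRZ : R ≤ 2 ^ (32 * m) := by omega
      rw [hG, Finset.mem_filter, Finset.mem_Ioc] at hRG
      by_cases h1 : ∀ i, ¬ x i ∣ R
      · by_cases h2 : ∀ t ∈ Finset.Icc 2 z, ¬ t ^ (e + 1) ∣ R
        · have h3 : ¬ ∀ g, g ∣ R → z < g → ¬ Bad x g := fun h3 => hRG ⟨⟨hR0, hRZ⟩, h1, h2, h3⟩
          push Not at h3
          obtain ⟨g, hg1, hg2, hg3⟩ := h3
          apply Finset.mem_union_right
          rw [Finset.mem_biUnion]
          refine ⟨g, Finset.mem_filter.2 ⟨Finset.mem_Ioc.2 ⟨hg2, ?_⟩, hg3⟩,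
            Finset.mem_filter.2 ⟨hRI, hg1⟩⟩
          exact (Nat.le_of_dvd hR0 hg1).trans hRZ
        · push Not at h2
          obtain ⟨t, ht1, ht2⟩ := h2
          apply Finset.mem_union_left
          apply Finset.mem_union_right
          rw [Finset.mem_biUnion]
          exact ⟨t, ht1, Finset.mem_filter.2 ⟨hRI, ht2⟩⟩
      · push Not at h1
        obtain ⟨i, hi⟩ := h1
        apply Finset.mem_union_left
        apply Finset.mem_union_left
        rw [Finset.mem_biUnion]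
        exact ⟨i, Finset.mem_univ _, Finset.mem_filter.2 ⟨hRI, hi⟩⟩
    have hqpos : (0 : ℝ) < q := by
      have : 0 < 2 ^ (31 * m) := by positivity
      exact_mod_cast (by omega : 0 < q)
    have hmR : (8192 : ℝ) ≤ m := by exact_mod_cast hm8
    have hqm : (64 : ℝ) * (64 * m) ≤ q := by
      have h1 : 64 * (64 * m) ≤ 2 ^ (31 * m) := by
        have h2 : m < 2 ^ m := Nat.lt_two_pow_self
        calc 64 * (64 * m) = 2 ^ 12 * m := by ring
          _ ≤ 2 ^ m * 2 ^ m := Nat.mul_le_mul (Nat.pow_le_pow_right (by norm_num) (by omega)) h2.le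
          _ = 2 ^ (m + m) := by rw [pow_add]
          _ ≤ 2 ^ (31 * m) := Nat.pow_le_pow_right (by norm_num) (by omega)
      exact_mod_cast h1.trans hq
    -- first part
    have hA : ((((Finset.univ : Finset (Fin (64 * m))).biUnion
        (fun i => I.filter (fun R => x i ∣ R))).card : ℕ) : ℝ) ≤ q / 16 := by
      calc ((((Finset.univ : Finset (Fin (64 * m))).biUnion
          (fun i => I.filter (fun R => x i ∣ R))).card : ℕ) : ℝ)
          ≤ ((∑ i : Fin (64 * m), (I.filter (fun R => x i ∣ R)).card : ℕ) : ℝ) := by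
            exact_mod_cast Finset.card_biUnion_le
        _ = ∑ i : Fin (64 * m), ((I.filter (fun R => x i ∣ R)).card : ℝ) := by push_cast; rfl
        _ ≤ ∑ i : Fin (64 * m), ((q : ℝ) / (m ^ 2) + 1) := by
            apply Finset.sum_le_sum
            intro i _
            refine (card_dvd_Ioc y q (x i)).trans ?_
            have h1 : ((m : ℝ) ^ 2) ≤ x i := by exact_mod_cast (hx i).2.1.le
            have h2 : (0 : ℝ) < (m : ℝ) ^ 2 := by positivity
            (clear * - hqpos hm8 h1; gcongr)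
        _ = 64 * m * ((q : ℝ) / (m ^ 2) + 1) := by simp only [sum_const, card_univ, Fintype.card_fin, smul_add, nsmul_eq_mul, Nat.cast_mul, Nat.cast_ofNat, mul_one]; ring
        _ = 64 * q / m + 64 * m := by (clear * - hm8 hqpos; field_simp)
        _ ≤ q / 64 + q / 64 := by
            apply add_le_add
            · rw [div_le_div_iff₀ (by positivity) (by positivity)]
              nlinarith only [hmR]
            · linarith only [hqm]
        _ ≤ q / 16 := by linarith only [hqm]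
    have hB : ((((Finset.Icc 2 z).biUnion (fun t => I.filter (fun R => t ^ (e + 1) ∣ R))).card
        : ℕ) : ℝ) ≤ q / 16 := by
      calc ((((Finset.Icc 2 z).biUnion (fun t => I.filter (fun R => t ^ (e + 1) ∣ R))).card
          : ℕ) : ℝ)
          ≤ ((∑ t ∈ Finset.Icc 2 z, (I.filter (fun R => t ^ (e + 1) ∣ R)).card : ℕ) : ℝ) := by
            exact_mod_cast Finset.card_biUnion_le
        _ = ∑ t ∈ Finset.Icc 2 z, ((I.filter (fun R => t ^ (e + 1) ∣ R)).card : ℝ) := by
            push_cast; rfl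
        _ ≤ ∑ t ∈ Finset.Icc 2 z, ((q : ℝ) / (64 * m) + 1) := by
            apply Finset.sum_le_sum
            intro t ht
            rw [Finset.mem_Icc] at ht
            refine (card_dvd_Ioc y q (t ^ (e + 1))).trans ?_
            have h1 : ((64 * m : ℕ) : ℝ) ≤ ((t ^ (e + 1) : ℕ) : ℝ) := by
              apply Nat.cast_le.2
              exact he1.le.trans (Nat.pow_le_pow_left ht.1 _)
            have h2 : (0 : ℝ) < 64 * m := by positivity
            push_cast at h1 ⊢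
            (clear * - hqpos hm8 h1; gcongr)
        _ = ((Finset.Icc 2 z).card : ℝ) * ((q : ℝ) / (64 * m) + 1) := by simp only [sum_const, Nat.card_Icc, Nat.reduceSubDiff, smul_add, nsmul_eq_mul, mul_one]; ring
        _ ≤ m * ((q : ℝ) / (64 * m) + 1) := by
            have h1 : ((Finset.Icc 2 z).card : ℝ) ≤ m := by
              have : (Finset.Icc 2 z).card ≤ m := by rw [Nat.card_Icc]; omega
              exact_mod_cast this
            (clear * - h1 hqpos hm8; gcongr)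
        _ = q / 64 + m := by (clear * - hm8 hqpos; field_simp)
        _ ≤ q / 16 := by linarith only [hqm]
    have hC' : (((((Finset.Ioc z (2 ^ (32 * m))).filter (fun g => Bad x g)).biUnion
          (fun g => I.filter (fun R => g ∣ R))).card : ℕ) : ℝ) ≤ q / 16 := by
      have hHpos : (0 : ℝ) < 2 ^ (31 * m) := by positivity
      have hqH : (2 : ℝ) ^ (31 * m) ≤ q := by exact_mod_cast hq
      calc (((((Finset.Ioc z (2 ^ (32 * m))).filter (fun g => Bad x g)).biUnion
          (fun g => I.filter (fun R => g ∣ R))).card : ℕ) : ℝ)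
          ≤ ((∑ g ∈ (Finset.Ioc z (2 ^ (32 * m))).filter (fun g => Bad x g),
              (I.filter (fun R => g ∣ R)).card : ℕ) : ℝ) := by
            exact_mod_cast Finset.card_biUnion_le
        _ = ∑ g ∈ (Finset.Ioc z (2 ^ (32 * m))).filter (fun g => Bad x g),
              ((I.filter (fun R => g ∣ R)).card : ℝ) := by push_cast; rfl
        _ ≤ ∑ g ∈ (Finset.Ioc z (2 ^ (32 * m))).filter (fun g => Bad x g),
              (q / 2 ^ (31 * m)) * ((2 : ℝ) ^ (31 * m) / g + 1) := by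
            apply Finset.sum_le_sum
            intro g hg
            refine (card_dvd_Ioc y q g).trans ?_
            rw [mul_add, mul_one]
            apply add_le_add
            · apply le_of_eq; (clear * - hqpos; field_simp)
            · rw [le_div_iff₀ hHpos]; linarith only [hqH]
        _ = (q / 2 ^ (31 * m)) * ∑ g ∈ (Finset.Ioc z (2 ^ (32 * m))).filter (fun g => Bad x g),
              ((2 : ℝ) ^ (31 * m) / g + 1) := by rw [Finset.mul_sum]
        _ ≤ (q / 2 ^ (31 * m)) * (2 ^ (31 * m) / 16) := by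
            apply mul_le_mul_of_nonneg_left hsum; (clear * - hqpos; positivity)
        _ = q / 16 := by (clear * - hqpos; field_simp)
    have hfinal : (((I.filter (fun R => R ∉ G)).card : ℕ) : ℝ) ≤ q / 16 + q / 16 + q / 16 := by
      refine le_trans ?_ (add_le_add (add_le_add hA hB) hC')
      have h1 := (Finset.card_le_card hcover).trans ((Finset.card_union_le _ _).trans
        (Nat.add_le_add_right (Finset.card_union_le _ _) _))
      exact_mod_cast h1
    have : (4 : ℝ) * ((I.filter (fun R => R ∉ G)).card : ℝ) ≤ q := by linarith only [hfinal]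
    exact_mod_cast this

section
variable {m N₂ B : ℕ} (G : Finset ℕ)

/-- two good digits -/
theorem two_digits (hm : 2 ≤ m)
    (hG : ∀ R ∈ G, IsUFB B 12 ((R : ℚ) / N₂))
    (hd : ∀ y q : ℕ, 2 ^ (31 * m) ≤ q → y + q ≤ 2 ^ (32 * m) →
        4 * ((Finset.Ioc y (y + q)).filter (fun R => R ∉ G)).card ≤ q)
    (q : ℕ) (h1 : 2 ^ (32 * m - 1) ≤ q) (h2 : q ≤ 2 ^ (32 * m)) :
    IsUFB B 24 ((q : ℚ) / N₂) := by
  have hH : 2 ^ (31 * m) < q := by
    refine lt_of_lt_of_le ?_ h1
    exact Nat.pow_lt_pow_right (by norm_num) (by omega)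
  have hHp : 0 < 2 ^ (31 * m) := by positivity
  have hq0 : 0 < q := by omega
  -- number of bad R in (0, q-1]
  have hbad := hd 0 (q - 1) (by omega) (by omega)
  rw [Nat.zero_add] at hbad
  set B := (Finset.Ioc 0 (q - 1)).filter (fun R => R ∉ G) with hB
  set B' := (Finset.Ioc 0 (q - 1)).filter (fun R => q - R ∉ G) with hB'
  have hcard : B'.card ≤ B.card := by
    apply Finset.card_le_card_of_injOn (fun R => q - R)
    · intro R hR
      simp only [hB', Finset.coe_filter, Finset.mem_Ioc, Set.mem_ofPred_eq] at hR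
      simp only [hB, Finset.coe_filter, Finset.mem_Ioc, Set.mem_ofPred_eq]
      refine ⟨by omega, hR.2⟩
    · intro R hR R' hR' heq
      simp only [hB', Finset.coe_filter, Finset.mem_Ioc, Set.mem_ofPred_eq] at hR hR'
      simp only at heq
      omega
  have : ∃ R ∈ Finset.Ioc 0 (q - 1), R ∉ B ∪ B' := by
    by_contra hcon
    push Not at hcon
    have hsub : Finset.Ioc 0 (q - 1) ⊆ B ∪ B' := fun R hR => hcon R hR
    have h3 := Finset.card_le_card hsub
    have h4 := Finset.card_union_le B B'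
    rw [Nat.card_Ioc, Nat.sub_zero] at h3
    have h5 : 4 ≤ 2 ^ (31 * m) := by
      calc 4 = 2 ^ 2 := by norm_num
        _ ≤ 2 ^ (31 * m) := Nat.pow_le_pow_right (by norm_num) (by omega)
    omega
  obtain ⟨R, hR, hR2⟩ := this
  rw [Finset.mem_union, not_or] at hR2
  have hRG : R ∈ G := by
    by_contra hcon
    exact hR2.1 (Finset.mem_filter.2 ⟨hR, hcon⟩)
  have hRG' : q - R ∈ G := by
    by_contra hcon
    exact hR2.2 (Finset.mem_filter.2 ⟨hR, hcon⟩)
  rw [Finset.mem_Ioc] at hR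
  have h5 := (hG R hRG).add (hG (q - R) hRG')
  have h6 : (R : ℚ) / N₂ + ((q - R : ℕ) : ℚ) / N₂ = (q : ℚ) / N₂ := by
    rw [Nat.cast_sub (by omega)]; ring
  rw [h6] at h5
  exact h5

/-- one digit step -/
theorem one_digit (hm : 2 ≤ m)
    (hd : ∀ y q : ℕ, 2 ^ (31 * m) ≤ q → y + q ≤ 2 ^ (32 * m) →
        4 * ((Finset.Ioc y (y + q)).filter (fun R => R ∉ G)).card ≤ q)
    (s : ℕ) (hs : 2 ^ (32 * m - 1) ≤ s) :
    ∃ R ∈ G, ∃ u : ℕ, 2 ^ u ≤ s ∧ R * 2 ^ u ≤ s ∧ (s - R * 2 ^ u) * 2 ^ (m - 1) ≤ s := by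
  have hs0 : s ≠ 0 := by
    have : 0 < 2 ^ (32 * m - 1) := by positivity
    omega
  set u := Nat.log 2 s - (32 * m - 1) with hu
  have hlog : 32 * m - 1 ≤ Nat.log 2 s := by
    apply Nat.le_log_of_pow_le (by norm_num) hs
  have h1 : 2 ^ (Nat.log 2 s) ≤ s := Nat.pow_log_le_self 2 hs0
  have h2 : s < 2 ^ (Nat.log 2 s + 1) := Nat.lt_pow_succ_log_self (by norm_num) s
  have hlog2 : Nat.log 2 s = (32 * m - 1) + u := by omega
  rw [hlog2] at h1 h2
  set y := s / 2 ^ u with hy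
  have hupos : 0 < 2 ^ u := by positivity
  have hy1 : 2 ^ (32 * m - 1) ≤ y := by
    rw [hy, Nat.le_div_iff_mul_le hupos, ← pow_add]; exact h1
  have hy2 : y < 2 ^ (32 * m) := by
    rw [hy, Nat.div_lt_iff_lt_mul hupos, ← pow_add]
    convert h2 using 2; omega
  have hH : 2 ^ (31 * m) ≤ y := by
    refine le_trans ?_ hy1
    exact Nat.pow_le_pow_right (by norm_num) (by omega)
  have hbad := hd (y - 2 ^ (31 * m)) (2 ^ (31 * m)) le_rfl (by omega)
  have hsub : y - 2 ^ (31 * m) + 2 ^ (31 * m) = y := by omega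
  rw [hsub] at hbad
  have hHpos : 0 < 2 ^ (31 * m) := by positivity
  have : ∃ R ∈ Finset.Ioc (y - 2 ^ (31 * m)) y, R ∈ G := by
    by_contra hcon
    push Not at hcon
    have : (Finset.Ioc (y - 2 ^ (31 * m)) y).filter (fun R => R ∉ G)
        = Finset.Ioc (y - 2 ^ (31 * m)) y := by
      apply Finset.filter_true_of_mem
      exact hcon
    rw [this, Nat.card_Ioc] at hbad
    omega
  obtain ⟨R, hR, hRG⟩ := this
  rw [Finset.mem_Ioc] at hR
  refine ⟨R, hRG, u, ?_, ?_, ?_⟩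
  · calc 2 ^ u ≤ 2 ^ (32 * m - 1 + u) := Nat.pow_le_pow_right (by norm_num) (by omega)
      _ ≤ s := h1
  · calc R * 2 ^ u ≤ y * 2 ^ u := Nat.mul_le_mul_right _ hR.2
      _ ≤ s := Nat.div_mul_le_self s _
  · have h3 : s < (y + 1) * 2 ^ u := by
      have := Nat.lt_mul_div_succ s hupos
      rw [mul_comm]; exact this
    have h4 : (y + 1) ≤ R + 2 ^ (31 * m) := by omega
    have h5 : (y + 1) * 2 ^ u ≤ R * 2 ^ u + 2 ^ (31 * m) * 2 ^ u := by
      calc (y + 1) * 2 ^ u ≤ (R + 2 ^ (31 * m)) * 2 ^ u := Nat.mul_le_mul_right _ h4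
        _ = _ := by ring
    have h6 : s - R * 2 ^ u ≤ 2 ^ (31 * m) * 2 ^ u := by omega
    calc (s - R * 2 ^ u) * 2 ^ (m - 1) ≤ 2 ^ (31 * m) * 2 ^ u * 2 ^ (m - 1) :=
          Nat.mul_le_mul_right _ h6
      _ = 2 ^ (32 * m - 1 + u) := by
          rw [← pow_add, ← pow_add]; congr 1; (clear * - hm hH hsub; omega)
      _ ≤ s := h1

theorem digits_aux (hm : 2 ≤ m) (hN : 0 < N₂)
    (hG : ∀ R ∈ G, IsUFB B 12 ((R : ℚ) / N₂))
    (hd : ∀ y q : ℕ, 2 ^ (31 * m) ≤ q → y + q ≤ 2 ^ (32 * m) →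
        4 * ((Finset.Ioc y (y + q)).filter (fun R => R ∉ G)).card ≤ q)
    (w j : ℕ) : ∀ s : ℕ, s ≤ 2 ^ w → s ≤ 2 ^ ((m - 1) * j) * 2 ^ (32 * m - 1) →
    IsUFB (B * 2 ^ w) (24 + 12 * j) (((s + 2 ^ (32 * m - 1) : ℕ) : ℚ) / (2 ^ w * N₂)) := by
  induction j with
  | zero =>
    intro s _ hs
    have h1 := two_digits G hm hG hd (s + 2 ^ (32 * m - 1)) (by omega) (by
      have : 2 ^ (32 * m) = 2 ^ (32 * m - 1) + 2 ^ (32 * m - 1) := by
        rw [← two_mul, ← pow_succ']; congr 1; omega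
      simp only [mul_zero, pow_zero, one_mul] at hs
      omega)
    have h2 := h1.div (t := 2 ^ w) (by positivity)
    have h3 : ((s + 2 ^ (32 * m - 1) : ℕ) : ℚ) / N₂ / ((2 ^ w : ℕ) : ℚ)
        = ((s + 2 ^ (32 * m - 1) : ℕ) : ℚ) / (2 ^ w * N₂) := by
      push_cast
      rw [div_div, mul_comm (N₂ : ℚ)]
    rw [h3] at h2
    exact h2
  | succ j ih =>
    intro s hsw hs
    by_cases hsmall : s ≤ 2 ^ (32 * m - 1)
    · refine (ih s hsw ?_).mono le_rfl (by omega)
      calc s ≤ 2 ^ (32 * m - 1) := hsmall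
        _ ≤ 2 ^ ((m - 1) * j) * 2 ^ (32 * m - 1) := Nat.le_mul_of_pos_left _ (by positivity)
    · push Not at hsmall
      obtain ⟨R, hRG, u, hu1, hu2, hu3⟩ := one_digit G hm hd s hsmall.le
      have huw : u ≤ w := by
        have : 2 ^ u ≤ 2 ^ w := hu1.trans hsw
        exact (Nat.pow_le_pow_iff_right (by norm_num)).1 this
      have hs' : s - R * 2 ^ u ≤ 2 ^ ((m - 1) * j) * 2 ^ (32 * m - 1) := by
        have h1 : (s - R * 2 ^ u) * 2 ^ (m - 1)
            ≤ (2 ^ ((m - 1) * j) * 2 ^ (32 * m - 1)) * 2 ^ (m - 1) := by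
          calc (s - R * 2 ^ u) * 2 ^ (m - 1) ≤ s := hu3
            _ ≤ 2 ^ ((m - 1) * (j + 1)) * 2 ^ (32 * m - 1) := hs
            _ = _ := by rw [mul_add, pow_add]; ring
        exact Nat.le_of_mul_le_mul_right h1 (by positivity)
      have h1 := ih (s - R * 2 ^ u) (by omega) hs'
      have h2 := ((hG R hRG).div (t := 2 ^ (w - u)) (by positivity)).mono
        (B' := B * 2 ^ w) (Nat.mul_le_mul_left _
          (Nat.pow_le_pow_right (by norm_num) (Nat.sub_le _ _))) le_rfl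
      have h3 := h1.add h2
      have h4 : (((s - R * 2 ^ u) + 2 ^ (32 * m - 1) : ℕ) : ℚ) / (2 ^ w * N₂)
          + (R : ℚ) / N₂ / ((2 ^ (w - u) : ℕ) : ℚ)
          = ((s + 2 ^ (32 * m - 1) : ℕ) : ℚ) / (2 ^ w * N₂) := by
        have hw : (2 : ℚ) ^ w = 2 ^ (w - u) * 2 ^ u := by
          rw [← pow_add]; congr 1; omega
        have hN' : (N₂ : ℚ) ≠ 0 := by positivity
        rw [Nat.cast_add, Nat.cast_sub hu2]
        push_cast
        rw [hw]
        field_simp
        ring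
      rw [h4] at h3
      exact h3.mono le_rfl (by omega)

theorem digits (hm : 2 ≤ m) (hN : 0 < N₂)
    (hG : ∀ R ∈ G, IsUFB B 12 ((R : ℚ) / N₂))
    (hd : ∀ y q : ℕ, 2 ^ (31 * m) ≤ q → y + q ≤ 2 ^ (32 * m) →
        4 * ((Finset.Ioc y (y + q)).filter (fun R => R ∉ G)).card ≤ q)
    (w q : ℕ) (hq : q ≤ 2 ^ w) :
    IsUFB (B * 2 ^ (w + 32 * m)) (12 * (w / (m - 1) + 3)) ((q : ℚ) / (2 ^ w * N₂)) := by
  rcases Nat.eq_zero_or_pos q with h0 | hq0
  · subst h0; simpa only [CharP.cast_eq_zero, zero_div] using isUFB_zero _ _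
  by_cases hbig : 2 ^ (32 * m - 1) ≤ q
  · have hm1 : 0 < m - 1 := by omega
    have h1 := digits_aux G hm hN hG hd w (w / (m - 1) + 1) (q - 2 ^ (32 * m - 1))
      ((Nat.sub_le _ _).trans hq) (by
      calc q - 2 ^ (32 * m - 1) ≤ q := Nat.sub_le _ _
        _ ≤ 2 ^ w := hq
        _ ≤ 2 ^ ((m - 1) * (w / (m - 1) + 1)) := by
            apply Nat.pow_le_pow_right (by norm_num)
            exact (Nat.lt_mul_div_succ w hm1).le
        _ ≤ 2 ^ ((m - 1) * (w / (m - 1) + 1)) * 2 ^ (32 * m - 1) :=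
            Nat.le_mul_of_pos_right _ (by positivity))
    have h2 : q - 2 ^ (32 * m - 1) + 2 ^ (32 * m - 1) = q := by omega
    rw [h2] at h1
    exact h1.mono (Nat.mul_le_mul_left _ (Nat.pow_le_pow_right (by norm_num) (by omega))) (by omega)
  · push Not at hbig
    -- scale
    set t := 32 * m - 1 - Nat.log 2 q with ht
    have hlt : Nat.log 2 q < 32 * m - 1 := by
      exact Nat.log_lt_of_lt_pow (by omega) hbig
    have h1 : 2 ^ (Nat.log 2 q) ≤ q := Nat.pow_log_le_self 2 (by omega)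
    have h2 : q < 2 ^ (Nat.log 2 q + 1) := Nat.lt_pow_succ_log_self (by norm_num) q
    have h3 : 2 ^ (32 * m - 1) ≤ q * 2 ^ t := by
      calc 2 ^ (32 * m - 1) = 2 ^ (Nat.log 2 q) * 2 ^ t := by
            rw [← pow_add]; congr 1; omega
        _ ≤ q * 2 ^ t := Nat.mul_le_mul_right _ h1
    have h4 : q * 2 ^ t ≤ 2 ^ (32 * m) := by
      calc q * 2 ^ t ≤ 2 ^ (Nat.log 2 q + 1) * 2 ^ t := Nat.mul_le_mul_right _ h2.le
        _ = 2 ^ (32 * m) := by rw [← pow_add]; congr 1; omega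
    have h5 := (two_digits G hm hG hd _ h3 h4).div (t := 2 ^ (w + t)) (by positivity)
    have h6 : ((q * 2 ^ t : ℕ) : ℚ) / N₂ / ((2 ^ (w + t) : ℕ) : ℚ) = (q : ℚ) / (2 ^ w * N₂) := by
      have hN' : (N₂ : ℚ) ≠ 0 := by positivity
      push_cast
      rw [pow_add]
      field_simp
    rw [h6] at h5
    exact h5.mono (Nat.mul_le_mul_left _ (Nat.pow_le_pow_right (by norm_num) (by omega))) (by
      generalize w / (m - 1) = z
      omega)

end

end Vale.Agent.P012.H422
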