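import Vale.Agent.P012.Defs

/-!
For a prime `p` every expansion of `a / p` has a denominator divisible by `p`.
-/

namespace Vale.Agent.P012.H422

open Finset Vale.Agent.P012

theorem prime_dvd {a p : ℕ} (hp : p.Prime) (ha : 1 ≤ a) (hap : a < p) {s : Finset ℕ}
    (hs : IsExpansion a p s) : ∃ n ∈ s, p ∣ n := by
  by_contra hcon
  push Not at hcon
  have hpos : ∀ n ∈ s, n ≠ 0 := fun n hn => by
    have := hs.1 n hn
    omega
  -- multiply by the product of the denominators
  set P := ∏ n ∈ s, n with hP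
  have hPp : ¬ p ∣ P := by
    intro h
    obtain ⟨n, hn, h'⟩ := (Prime.dvd_finset_prod_iff hp.prime _).1 h
    exact hcon n hn h'
  have hP0 : P ≠ 0 := Finset.prod_ne_zero_iff.2 hpos
  have h1 : ((∑ n ∈ s, P / n : ℕ) : ℚ) = (P : ℚ) * (a / p) := by
    rw [← hs.2, Finset.mul_sum]
    push_cast
    refine Finset.sum_congr rfl fun n hn => ?_
    have h2 : n ∣ P := Finset.dvd_prod_of_mem _ hn
    rw [Nat.cast_div h2 (by exact_mod_cast hpos n hn)]
    ring
  have hp0 : (p : ℚ) ≠ 0 := by exact_mod_cast hp.ne_zero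
  have h3 : (∑ n ∈ s, P / n) * p = P * a := by
    have h4 : ((∑ n ∈ s, P / n : ℕ) : ℚ) * p = (P : ℚ) * a := by
      rw [h1]; field_simp
    exact_mod_cast h4
  have h5 : p ∣ P * a := Dvd.intro_left _ h3
  rcases (Nat.Prime.dvd_mul hp).1 h5 with h | h
  · exact hPp h
  · exact absurd (Nat.le_of_dvd (by omega) h) (by omega)

end Vale.Agent.P012.H422
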