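import Vale.Agent.P012.H422.KeyB

/-!
Every `a / b` is a sum of `O_ε(log log b)` distinct unit fractions with denominators at most
`b ^ (2 + ε)`.
-/

set_option linter.all false

namespace Vale.Agent.P012.H422

open Finset Filter Vale.Agent.P012

theorem exists_log_le (X : ℕ) : ∃ M₀ : ℕ, ∀ m ≥ M₀, X * (Nat.log 2 m + 1) ≤ m := by
  refine ⟨2 ^ (2 * X + 8), fun m hm => ?_⟩
  have hm0 : m ≠ 0 := by
    have : 0 < 2 ^ (2 * X + 8) := by positivity
    omega
  have hL : 2 * X + 8 ≤ Nat.log 2 m := Nat.le_log_of_pow_le (by norm_num) hm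
  have hmL : 2 ^ (Nat.log 2 m) ≤ m := Nat.pow_log_le_self 2 hm0
  have hlin : ∀ h : ℕ, 4 ≤ h → 2 * h + 2 ≤ 2 ^ h := by
    intro h hh
    induction h, hh using Nat.le_induction with
    | base => norm_num
    | succ k hk ih => rw [pow_succ]; omega
  have h1 : Nat.log 2 m + 1 ≤ 2 ^ (Nat.log 2 m / 2) := by
    have := hlin (Nat.log 2 m / 2) (by omega)
    omega
  have h2 : X ≤ 2 ^ (Nat.log 2 m / 2) := by
    calc X ≤ 2 ^ X := Nat.lt_two_pow_self.le
      _ ≤ 2 ^ (Nat.log 2 m / 2) := Nat.pow_le_pow_right (by norm_num) (by omega)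
  calc X * (Nat.log 2 m + 1) ≤ 2 ^ (Nat.log 2 m / 2) * 2 ^ (Nat.log 2 m / 2) :=
        Nat.mul_le_mul h2 h1
    _ = 2 ^ (Nat.log 2 m / 2 + Nat.log 2 m / 2) := by rw [pow_add]
    _ ≤ 2 ^ (Nat.log 2 m) := Nat.pow_le_pow_right (by norm_num) (by omega)
    _ ≤ m := hmL

/-- the rest of the greedy algorithm as a sum of distinct unit fractions. -/
theorem rest {μ N₂ : ℕ} (G : Finset ℕ) (hm2 : 2 ≤ μ) (hN0 : 0 < N₂)
    (hG : ∀ R ∈ G, IsUFB (12 * N₂ ^ 2) 12 ((R : ℚ) / N₂))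
    (hd : ∀ y q : ℕ, 2 ^ (31 * μ) ≤ q → y + q ≤ 2 ^ (32 * μ) →
        4 * ((Finset.Ioc y (y + q)).filter (fun R => R ∉ G)).card ≤ q)
    (w K a' b' : ℕ) (hb' : 0 < b') (hb'w : b' ≤ 2 ^ w) (ha' : a' * 2 ^ K * N₂ ≤ b')
    (hK : 24 * (w / (μ - 1) + 3) ≤ K) :
    ∃ S : Finset ℕ, S.card ≤ K ∧
      (∀ n ∈ S, 0 < n ∧ n ≤ 12 * N₂ ^ 2 * 2 ^ (w + 32 * μ) * b' * 2 ^ K) ∧
      ∑ n ∈ S, (1 : ℚ) / n = (a' : ℚ) / b' := by
  set N := 2 ^ w * N₂ with hNdef
  have hNpos : 0 < N := by positivity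
  set a'' := a' * 2 ^ K with ha''
  set q := a'' * N / b' with hq
  set r := a'' * N % b' with hr
  have hqr : b' * q + r = a'' * N := Nat.div_add_mod _ _
  have hrw : r ≤ 2 ^ w := (Nat.mod_lt _ hb').le.trans hb'w
  have hqw : q ≤ 2 ^ w := by
    rw [hq]
    apply Nat.div_le_of_le_mul
    calc a'' * N = (a'' * N₂) * 2 ^ w := by rw [hNdef]; ring
      _ ≤ b' * 2 ^ w := Nat.mul_le_mul_right _ ha'
  have h1 := (digits G hm2 hN0 hG hd w q hqw).mono
    (B' := 12 * N₂ ^ 2 * 2 ^ (w + 32 * μ) * b') (Nat.le_mul_of_pos_right _ hb') le_rfl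
  have h2 := (digits G hm2 hN0 hG hd w r hrw).div hb'
  have h3 := h1.add h2
  have h4 : (q : ℚ) / (2 ^ w * N₂) + (r : ℚ) / (2 ^ w * N₂) / b' = (a'' : ℚ) / b' := by
    have hb'Q : (b' : ℚ) ≠ 0 := by positivity
    have hN' : (N₂ : ℚ) ≠ 0 := by positivity
    have h5 : (b' : ℚ) * q + r = a'' * (2 ^ w * N₂) := by
      have := congrArg (fun n : ℕ => (n : ℚ)) hqr
      simp only [hNdef] at this
      push_cast at this
      exact this
    field_simp
    linarith only [h5]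
  rw [h4] at h3
  -- all denominators divisible by `2 ^ K`
  obtain ⟨M, hM1, hM2, hM3⟩ := h3
  have hcard : Multiset.card M ≤ K := by
    refine hM2.trans (le_trans ?_ hK)
    generalize w / (μ - 1) = z
    omega
  obtain ⟨S, hS1, hS2, hS3⟩ := merge (12 * N₂ ^ 2 * 2 ^ (w + 32 * μ) * b' * 2 ^ K)
    (Multiset.card M) (M.map (fun n => n * 2 ^ K)) (Multiset.card_map _ _) (by
      intro n hn
      obtain ⟨c, hc, rfl⟩ := Multiset.mem_map.1 hn
      refine ⟨Nat.mul_pos (hM1 c hc).1 (by positivity), Nat.mul_le_mul_right _ (hM1 c hc).2, ?_⟩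
      exact (pow_dvd_pow 2 hcard).trans (Dvd.intro_left _ rfl))
  refine ⟨S, hS1.trans hcard, hS2, ?_⟩
  rw [hS3, Multiset.map_map]
  have h6 : (M.map ((fun n : ℕ => 1 / (n : ℚ)) ∘ fun n => n * 2 ^ K)).sum
      = (M.map (fun n : ℕ => 1 / (n : ℚ))).sum / 2 ^ K := by
    rw [← Multiset.sum_map_div]
    congr 1
    apply Multiset.map_congr rfl
    intro n _
    simp only [Function.comp]
    push_cast
    rw [div_div]
  rw [h6, hM3, ha'']
  push_cast
  have hb'Q : (b' : ℚ) ≠ 0 := by positivity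
  field_simp

theorem upper_natB (hkey : KeyStatementB) (t : ℕ) (ht : 1 ≤ t) : ∃ C b₀ : ℕ, ∀ b ≥ b₀, ∀ a : ℕ,
    a < b → ∃ S : Finset ℕ, S.card ≤ C * (Nat.log 2 (Nat.log 2 b + 1) + 1) ∧
      (∀ n ∈ S, 2 ≤ n ∧ n ^ t ≤ b ^ (2 * t + 1)) ∧ ∑ n ∈ S, (1 : ℚ) / n = (a : ℚ) / b := by
  obtain ⟨m₀, hm₀⟩ := hkey
  obtain ⟨s, hs⟩ : ∃ s, s = 300000 * t := ⟨_, rfl⟩
  obtain ⟨M₀, hM₀⟩ := exists_log_le (s * (m₀ + 2) + 8000 * t * s + 16 * t)
  refine ⟨192 * s + 74, 2 ^ (M₀ + 2), fun b hb a hab => ?_⟩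
  have hb0 : b ≠ 0 := by
    have : 0 < 2 ^ (M₀ + 2) := by positivity
    omega
  obtain ⟨m, hm⟩ : ∃ m, m = Nat.log 2 b + 1 := ⟨_, rfl⟩
  have hmlog : M₀ + 2 ≤ Nat.log 2 b := Nat.le_log_of_pow_le (by norm_num) hb
  have hbm : b < 2 ^ m := by rw [hm]; exact Nat.lt_pow_succ_log_self (by norm_num) b
  have hmb : 2 ^ (m - 1) ≤ b := by
    rw [hm, Nat.add_sub_cancel]
    exact Nat.pow_log_le_self 2 hb0
  rw [← hm]
  have hbig := hM₀ m (by omega)
  obtain ⟨L, hL⟩ : ∃ L, L = Nat.log 2 m + 1 := ⟨_, rfl⟩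
  have hmL : m < 2 ^ L := by rw [hL]; exact Nat.lt_pow_succ_log_self (by norm_num) m
  rw [← hL] at hbig ⊢
  have hL1 : 1 ≤ L := by omega
  have hs1 : 1 ≤ s := by omega
  -- pieces of hbig
  have hb1 : s * L * (m₀ + 2) ≤ m := by
    refine le_trans ?_ hbig
    calc s * L * (m₀ + 2) = s * (m₀ + 2) * L := by ring
      _ ≤ (s * (m₀ + 2) + 8000 * t * s + 16 * t) * L := Nat.mul_le_mul_right _ (by omega)
  have hb2 : 8000 * (t * (s * L)) ≤ m := by
    refine le_trans ?_ hbig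
    calc 8000 * (t * (s * L)) = (8000 * t * s) * L := by ring
      _ ≤ (s * (m₀ + 2) + 8000 * t * s + 16 * t) * L := Nat.mul_le_mul_right _ (by omega)
  have hsL0 : 0 < s * L := Nat.mul_pos hs1 hL1
  have hsLbig : 300000 ≤ s * L := by
    calc 300000 = 300000 * 1 * 1 := by norm_num
      _ ≤ 300000 * t * L := Nat.mul_le_mul (Nat.mul_le_mul_left _ ht) hL1
      _ = s * L := by rw [hs]
  obtain ⟨μ, hμ⟩ : ∃ μ, μ = m / (s * L) := ⟨_, rfl⟩
  have hμ0 : m₀ + 2 ≤ μ := by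
    rw [hμ, Nat.le_div_iff_mul_le hsL0, mul_comm]; exact hb1
  have hμ1 : μ * (s * L) ≤ m := by rw [hμ]; exact Nat.div_mul_le_self _ _
  have hμ2 : m < (μ + 1) * (s * L) := by
    have := Nat.lt_mul_div_succ m hsL0
    rw [← hμ] at this
    rw [mul_comm]; exact this
  obtain ⟨N₂, hN0, hN, G, hG, hd⟩ := hm₀ μ (by omega)
  obtain ⟨A, hA⟩ : ∃ A, A = 7000 * (μ * L) := ⟨_, rfl⟩
  have hsA : s * A ≤ 7000 * m := by
    rw [hA]
    calc s * (7000 * (μ * L)) = 7000 * (μ * (s * L)) := by ring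
      _ ≤ 7000 * m := Nat.mul_le_mul_left _ hμ1
  have hsμ : s * μ ≤ m := by
    calc s * μ = μ * (s * 1) := by ring
      _ ≤ μ * (s * L) := Nat.mul_le_mul_left _ (Nat.mul_le_mul_left _ hL1)
      _ ≤ m := hμ1
  have hNA : N₂ ≤ 2 ^ A := by
    have hμm : μ ≤ m := by
      calc μ = μ * 1 := by ring
        _ ≤ μ * (s * L) := Nat.mul_le_mul_left _ hsL0
        _ ≤ m := hμ1
    calc N₂ ≤ μ ^ (7000 * μ) := hN
      _ ≤ (2 ^ L) ^ (7000 * μ) := Nat.pow_le_pow_left (hμm.trans hmL.le) _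
      _ = 2 ^ A := by rw [← pow_mul, hA]; congr 1; ring
  obtain ⟨K, hK⟩ : ∃ K, K = 24 * (8 * (s * L) + 3) := ⟨_, rfl⟩
  -- linear facts
  have ht4 : 4 * (t * (10 * A + 32 * μ)) ≤ m := by
    have h1 : 300000 * (t * (10 * A + 32 * μ)) ≤ 70032 * m := by
      calc 300000 * (t * (10 * A + 32 * μ)) = 10 * (s * A) + 32 * (s * μ) := by rw [hs]; ring
        _ ≤ 10 * (7000 * m) + 32 * m :=
            Nat.add_le_add (Nat.mul_le_mul_left _ hsA) (Nat.mul_le_mul_left _ hsμ)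
        _ = 70032 * m := by ring
    omega
  have htK : 4 * (t * (9 * K + 4)) ≤ m := by
    refine le_trans ?_ hb2
    have h1 : 9 * K + 4 ≤ 2000 * (s * L) := by rw [hK]; omega
    calc 4 * (t * (9 * K + 4)) ≤ 4 * (t * (2000 * (s * L))) :=
          Nat.mul_le_mul_left _ (Nat.mul_le_mul_left _ h1)
      _ = 8000 * (t * (s * L)) := by ring
  have htt : ∀ x, x ≤ t * x := fun x => Nat.le_mul_of_pos_left _ (by omega)
  have hAm : 40 * A + 128 * μ ≤ m := by
    have := htt (10 * A + 32 * μ); omega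
  have hKm : 36 * K + 16 ≤ m := by
    have := htt (9 * K + 4); omega
  have hA0 : A + K ≠ 0 := by rw [hK]; omega
  obtain ⟨j, hj⟩ : ∃ j, j = Nat.log 2 (A + K) + 1 := ⟨_, rfl⟩
  have hj1 : A + K < 2 ^ j := by rw [hj]; exact Nat.lt_pow_succ_log_self (by norm_num) _
  have hj2 : 2 ^ j ≤ 2 * (A + K) := by
    rw [hj, pow_succ, mul_comm]
    exact Nat.mul_le_mul_left _ (Nat.pow_log_le_self 2 hA0)
  obtain ⟨a', b', S₁, hb', hb'2, ha', hS1c, hS1, hS1s⟩ := greedyS j a b (by omega) hab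
  obtain ⟨w, hw⟩ : ∃ w, w = m + 4 * (A + K) := ⟨_, rfl⟩
  have hb'w : b' ≤ 2 ^ w := by
    calc b' ≤ b * 2 ^ (2 * 2 ^ j) := hb'2
      _ ≤ 2 ^ m * 2 ^ (4 * (A + K)) := by
          apply Nat.mul_le_mul hbm.le
          apply Nat.pow_le_pow_right (by norm_num)
          omega
      _ = 2 ^ w := by rw [← pow_add, hw]
  have haN : a' * 2 ^ K * N₂ ≤ b' := by
    calc a' * 2 ^ K * N₂ ≤ a' * 2 ^ K * 2 ^ A := Nat.mul_le_mul_left _ hNA
      _ = a' * 2 ^ (A + K) := by rw [mul_assoc, ← pow_add, Nat.add_comm]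
      _ ≤ a' * 2 ^ (2 ^ j) := Nat.mul_le_mul_left _ (Nat.pow_le_pow_right (by norm_num) hj1.le)
      _ ≤ b' := ha'
  have hwm : w / (μ - 1) ≤ 8 * (s * L) := by
    apply Nat.div_le_of_le_mul
    have h7 : 2 * (μ + 1) ≤ 8 * (μ - 1) := by omega
    calc w ≤ 2 * m := by omega
      _ ≤ 2 * ((μ + 1) * (s * L)) := Nat.mul_le_mul_left _ hμ2.le
      _ = (2 * (μ + 1)) * (s * L) := by ring
      _ ≤ (8 * (μ - 1)) * (s * L) := Nat.mul_le_mul_right _ h7
      _ = (μ - 1) * (8 * (s * L)) := by ring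
  obtain ⟨S₂, hS2c, hS2, hS2s⟩ := rest G (by omega) hN0 hG hd w K a' b' hb' hb'w haN (by
    rw [hK]; generalize w / (μ - 1) = z at *; omega)
  have hb'Q : (0 : ℚ) < b' := by positivity
  -- elements of the rest are large
  have hlarge : ∀ n ∈ S₂, b' ≤ a' * n := by
    intro n hn
    have h1 : (1 : ℚ) / n ≤ ∑ n ∈ S₂, (1 : ℚ) / n :=
      Finset.single_le_sum (f := fun n : ℕ => (1 : ℚ) / n) (fun i _ => by positivity) hn
    have hn0 : (0 : ℚ) < n := by exact_mod_cast (hS2 n hn).1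
    rw [hS2s, div_le_div_iff₀ hn0 hb'Q, one_mul] at h1
    exact_mod_cast h1
  have hdisj : Disjoint S₁ S₂ := by
    rw [Finset.disjoint_left]
    intro n h1 h2
    have h3 := (hS1 n h1).2.2
    have h4 := hlarge n h2
    rw [mul_comm] at h4
    omega
  have ha2 : a' * 2 ≤ b' := by
    refine le_trans (Nat.mul_le_mul_left _ ?_) ha'
    calc 2 = 2 ^ 1 := by norm_num
      _ ≤ 2 ^ (2 ^ j) := Nat.pow_le_pow_right (by norm_num) Nat.one_le_two_pow
  have hexp : ∀ T : ℕ, t * T ≤ (m - 1) * (2 * t + 1) → ∀ n : ℕ, n ≤ 2 ^ T →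
      n ^ t ≤ b ^ (2 * t + 1) := by
    intro T hT n hn
    calc n ^ t ≤ (2 ^ T) ^ t := Nat.pow_le_pow_left hn t
      _ = 2 ^ (t * T) := by rw [← pow_mul, mul_comm]
      _ ≤ 2 ^ ((m - 1) * (2 * t + 1)) := Nat.pow_le_pow_right (by norm_num) hT
      _ = (2 ^ (m - 1)) ^ (2 * t + 1) := by rw [pow_mul]
      _ ≤ b ^ (2 * t + 1) := Nat.pow_le_pow_left hmb _
  have hmt : 16 * t ≤ m := by
    have := htt (9 * K + 4)
    have h1 : t * 4 ≤ t * (9 * K + 4) := Nat.mul_le_mul_left _ (by omega)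
    omega
  obtain ⟨p, hp⟩ : ∃ p, m = p + 1 := ⟨m - 1, by omega⟩
  refine ⟨S₁ ∪ S₂, ?_, ?_, ?_⟩
  · rw [Finset.card_union_of_disjoint hdisj]
    have hjL : j ≤ L := by
      have h1 : 2 ^ (Nat.log 2 (A + K)) ≤ A + K := Nat.pow_log_le_self 2 hA0
      have h2 : 2 ^ (Nat.log 2 (A + K)) < 2 ^ L := by omega
      have h3 := (Nat.pow_lt_pow_iff_right (by norm_num : 1 < 2)).1 h2
      omega
    calc S₁.card + S₂.card ≤ (L + 1) + K := by omega
      _ = (L + 1) + 24 * (8 * (s * L) + 3) := by rw [hK]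
      _ = 192 * (s * L) + L + 73 := by ring
      _ ≤ 192 * (s * L) + 74 * L := by omega
      _ = (192 * s + 74) * L := by ring
  · intro n hn
    rcases Finset.mem_union.1 hn with h | h
    · refine ⟨(hS1 n h).1, hexp m ?_ n ?_⟩
      · subst hp
        have : t * (p + 1) = p * t + t := by ring
        have : (p + 1 - 1) * (2 * t + 1) = 2 * (p * t) + p := by
          rw [Nat.add_sub_cancel]; ring
        omega
      · refine (hS1 n h).2.1.trans (Nat.pow_le_pow_right (by norm_num) ?_)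
        omega
    · have hna : 2 ≤ n := by
        have h1 := hlarge n h
        by_contra hcon
        have h2 : n ≤ 1 := by omega
        have h3 : a' * n ≤ a' * 1 := Nat.mul_le_mul_left _ h2
        omega
      refine ⟨hna, hexp (2 * m + (10 * A + 32 * μ) + (9 * K + 4)) ?_ n ?_⟩
      · subst hp
        have h1 : t * (2 * (p + 1) + (10 * A + 32 * μ) + (9 * K + 4))
            = 2 * (p * t) + 2 * t + t * (10 * A + 32 * μ) + t * (9 * K + 4) := by ring
        have h2 : (p + 1 - 1) * (2 * t + 1) = 2 * (p * t) + p := by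
          rw [Nat.add_sub_cancel]; ring
        rw [h1, h2]
        generalize t * (10 * A + 32 * μ) = u at *
        generalize t * (9 * K + 4) = v at *
        generalize p * t = pt at *
        omega
      · refine (hS2 n h).2.trans ?_
        calc 12 * N₂ ^ 2 * 2 ^ (w + 32 * μ) * b' * 2 ^ K
            ≤ 2 ^ 4 * (2 ^ A) ^ 2 * 2 ^ (w + 32 * μ) * 2 ^ w * 2 ^ K := by
              apply Nat.mul_le_mul_right
              apply Nat.mul_le_mul _ hb'w
              apply Nat.mul_le_mul_right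
              exact Nat.mul_le_mul (by norm_num) (Nat.pow_le_pow_left hNA 2)
          _ = 2 ^ (4 + A * 2 + (w + 32 * μ) + w + K) := by
              rw [← pow_mul, ← pow_add, ← pow_add, ← pow_add, ← pow_add]
          _ ≤ 2 ^ (2 * m + (10 * A + 32 * μ) + (9 * K + 4)) :=
              Nat.pow_le_pow_right (by norm_num) (by omega)
  · rw [Finset.sum_union hdisj, hS1s, hS2s]
    ring

/-- the upper bound with real exponents. -/
theorem upperB (hkey : KeyStatementB) (ε : ℝ) (hε : 0 < ε) : ∃ C : ℝ, ∀ᶠ b : ℕ in atTop,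
    ∀ a : ℕ, 1 ≤ a → a < b → ∃ s : Finset ℕ, IsExpansion a b s ∧
      (s.card : ℝ) ≤ C * Real.log (Real.log b) ∧ ∀ n ∈ s, (n : ℝ) ≤ (b : ℝ) ^ (2 + ε) := by
  obtain ⟨t, ht⟩ := exists_nat_gt (1 / ε)
  have ht0 : (0 : ℝ) < t := lt_trans (by positivity) ht
  have ht1 : 1 ≤ t := by
    have : 0 < t := by exact_mod_cast ht0
    omega
  obtain ⟨C, b₀, hC⟩ := upper_natB hkey t ht1
  have hb₁ := tendsto_loglog.eventually_ge_atTop 1
  refine ⟨C * 7, ?_⟩
  filter_upwards [hb₁, eventually_ge_atTop b₀, eventually_ge_atTop 3] with b hll hb0 hb3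
  intro a ha hab
  obtain ⟨S, hS1, hS2, hS3⟩ := hC b hb0 a hab
  have hb3' : (3 : ℝ) ≤ b := by exact_mod_cast hb3
  refine ⟨S, ⟨fun n hn => (hS2 n hn).1, ?_⟩, ?_, ?_⟩
  · exact hS3
  · have hlogpos : 0 < Real.log b := Real.log_pos (by linarith only [hb3'])
    have hlog1 : 1 ≤ Real.log b := by
      have := Real.log_le_sub_one_of_pos hlogpos
      linarith only [hll, this]
    have h1 := natLog_le_log (x := b) (by omega)
    have h2 := natLog_le_log (x := Nat.log 2 b + 1) (by omega)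
    have h3 : ((Nat.log 2 b + 1 : ℕ) : ℝ) ≤ 3 * Real.log b := by
      push_cast; linarith only [hlog1, h1]
    have h4 : Real.log ((Nat.log 2 b + 1 : ℕ) : ℝ) ≤ Real.log 3 + Real.log (Real.log b) := by
      rw [← Real.log_mul (by norm_num) hlogpos.ne']
      exact Real.log_le_log (by positivity) h3
    have h5 : Real.log 3 ≤ 2 := by
      have := Real.log_le_sub_one_of_pos (x := 3) (by norm_num)
      linarith only [this]
    have h6 : ((S.card : ℕ) : ℝ) ≤ C * ((Nat.log 2 (Nat.log 2 b + 1) : ℝ) + 1) := by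
      exact_mod_cast hS1
    refine h6.trans ?_
    rw [mul_assoc]
    apply mul_le_mul_of_nonneg_left _ (Nat.cast_nonneg C)
    linarith only [hll, h5, h2, h4]
  · intro n hn
    have h1 := (hS2 n hn).2
    have h2 : ((n : ℝ)) ^ t ≤ (b : ℝ) ^ (2 * t + 1) := by exact_mod_cast h1
    have hn0 : (0 : ℝ) ≤ n := Nat.cast_nonneg n
    have hb0' : (0 : ℝ) ≤ b := Nat.cast_nonneg b
    have h3 : (n : ℝ) ≤ (b : ℝ) ^ (((2 * t + 1 : ℕ) : ℝ) / t) := by
      have h4 : (n : ℝ) = ((n : ℝ) ^ t) ^ ((1 : ℝ) / t) := by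
        rw [← Real.rpow_natCast, ← Real.rpow_mul hn0, mul_one_div_cancel ht0.ne', Real.rpow_one]
      have h5 : (b : ℝ) ^ (((2 * t + 1 : ℕ) : ℝ) / t) = ((b : ℝ) ^ (2 * t + 1)) ^ ((1 : ℝ) / t) := by
        rw [← Real.rpow_natCast, ← Real.rpow_mul hb0']
        congr 1
        ring
      rw [h4, h5]
      exact Real.rpow_le_rpow (by positivity) h2 (by positivity)
    refine h3.trans (Real.rpow_le_rpow_of_exponent_le (by linarith only [hb3']) ?_)
    push_cast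
    rw [div_le_iff₀ ht0]
    have h6 : 1 < ε * t := by
      rw [div_lt_iff₀ hε] at ht
      linarith only [ht]
    linarith only [h6]

end Vale.Agent.P012.H422
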